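import Vale.Agent.P181.TS.Spec

/-!
# P181, MD: columns of one fixed length `m ≥ 3` (`m` classes of letters, one for every row)

The point: `x_u(i) = [cl u = i] + t * y_u(i)`, `i < m`, with natural numbers `y_u(i)`. All columns
have length `m`: transversals, and columns with two letters of a class `i` and none of a class `k`.
-/

set_option autoImplicit false

namespace Vale.Agent.P181.MD

open Finset Vale.Agent.P181 Vale.Agent.P181.H280 Vale.Agent.P181.H463 Vale.Agent.P181.H59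
  Vale.Agent.P181.TS

/-- the leading coefficient is not zero -/
def RegM {b m : ℕ} (cl : Fin b → Fin m) (y : Fin b → Fin m → ℕ) (A : Finset (Fin b)) : Prop :=
  miss cl A = ∅ ∨ ∃ k : Fin m, miss cl A = {k} ∧
    ∃ u ∈ A, ∃ v ∈ A, u ≠ v ∧ cl u = cl v ∧ y u k ≠ y v k

/-- the leading coefficient is zero -/
def SingM {b m : ℕ} (cl : Fin b → Fin m) (y : Fin b → Fin m → ℕ) (A : Finset (Fin b)) : Prop :=
  ∃ u ∈ A, ∃ v ∈ A, u ≠ v ∧ cl u = cl v ∧ ∀ k ∈ miss cl A, y u k = y v k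

/-- **the design**: `N` columns of length `m` -/
def MDes (b N m : ℕ) : Prop :=
  ∃ (cl : Fin b → Fin m) (y : Fin b → Fin m → ℕ),
    ∀ gd : Fin b → ℕ, (∀ p q, gd p ≤ gd q + 1) → ∑ p, gd p = N * m →
    ∃ A : Fin N → Finset (Fin b), (∀ c, (A c).card = m) ∧ (∀ p, dgr A p = gd p) ∧
      (∀ c, RegM cl y (A c)) ∧
      ∀ ρ : Equiv.Perm (Fin b), ρ ≠ 1 →
        (∑ c, (miss cl (A c)).card < ∑ c, (miss cl ((A c).image ρ)).card) ∨
        ((∑ c, (miss cl (A c)).card ≤ ∑ c, (miss cl ((A c).image ρ)).card) ∧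
          ∃ c, SingM cl y ((A c).image ρ))

/-! ### The orbit inequality -/

/-- the configuration over `ℂ[t]` -/
noncomputable def pm {b m : ℕ} (cl : Fin b → Fin m) (y : Fin b → Fin m → ℕ) (u : Fin b)
    (i : Fin m) : Polynomial ℂ :=
  if cl u = i then 1 else Polynomial.C (y u i : ℂ) * Polynomial.X

/-- the minor of the `m` rows at the letters `e` -/
noncomputable def mn {b m : ℕ} (cl : Fin b → Fin m) (y : Fin b → Fin m → ℕ)
    (e : Fin m → Fin b) : Polynomial ℂ :=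
  Matrix.det (Matrix.of fun a s : Fin m => pm cl y (e a) s)

/-- **[MD-ORD1]** -/
def Ord1 : Prop := ∀ (b m : ℕ) (cl : Fin b → Fin m) (y : Fin b → Fin m → ℕ) (e : Fin m → Fin b),
  Function.Injective e → Polynomial.X ^ (miss cl (univ.image e)).card ∣ mn cl y e

/-- **[MD-ORD2]** -/
def Ord2 : Prop := ∀ (b m : ℕ) (cl : Fin b → Fin m) (y : Fin b → Fin m → ℕ) (e : Fin m → Fin b),
  Function.Injective e → SingM cl y (univ.image e) →
  Polynomial.X ^ ((miss cl (univ.image e)).card + 1) ∣ mn cl y e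

/-- **[MD-ORD3]** -/
def Ord3 : Prop := ∀ (b m : ℕ) (cl : Fin b → Fin m) (y : Fin b → Fin m → ℕ) (e : Fin m → Fin b),
  Function.Injective e → RegM cl y (univ.image e) →
  (mn cl y e).coeff (miss cl (univ.image e)).card ≠ 0

/-- **[MD-MAT]** the orbit inequality -/
def MatM : Prop :=
  ∀ (n k b N m : ℕ) (lam η : Fin n → ℕ), 0 < b → MDes b N m → m ≤ n → Antitone η →
    (∀ i : Fin n, (if (i : ℕ) < m then N else 0) + η i = lam i) →
    ∑ i, lam i = k * b →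
    gt n b η ≤ ((∑ i, η i) + b - 1).choose (b - 1) * (b.factorial * plethMult b k n lam)

/-- **[MD-MAT]** as a step (twin of `TS.MatTStep`) -/
def MatMStep : Prop := Ord1 → Ord2 → Ord3 → MatM

/-! ### The tests -/

/-- **[MD-TEST]** (grid without a rigid set of holes; fibres of size at most `P`) -/
def TestStmt : Prop := ∀ s : ℕ, 400 ≤ s →
  ∃ (P : ℕ) (f : Fin 2 → Fin s → Fin P) (E : Fin 2 → Finset (Fin s × Fin s)), P ^ 2 ≤ 4 * s ∧
    (∀ κ c, (univ.filter fun u => f κ u = c).card ≤ P) ∧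
    (∀ κ, ∀ x ∈ E κ, f κ x.1 ≠ f κ x.2) ∧
    (∀ κ u, ((E κ).filter fun x => x.1 = u ∨ x.2 = u).card ≤ 4 * P) ∧
    ∀ ρ : Equiv.Perm (Fin s), (∀ κ, ∀ x ∈ E κ, f κ (ρ x.1) ≠ f κ (ρ x.2)) → ρ = 1

/-- a system of tests `(i, k, u, v)`: `u, v` in the class `i`, the class `k` is missed -/
def MSys {b m : ℕ} (P : ℕ) (cl : Fin b → Fin m) (y : Fin b → Fin m → ℕ)
    (T : Finset (Tst b m)) : Prop :=
  (∀ t ∈ T, cl t.2.2.1 = t.1 ∧ cl t.2.2.2 = t.1 ∧ t.2.2.1 ≠ t.2.2.2 ∧ t.2.1 ≠ t.1 ∧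
    y t.2.2.1 t.2.1 ≠ y t.2.2.2 t.2.1) ∧
  (∀ u, (T.filter fun t => t.2.2.1 = u ∨ t.2.2.2 = u).card ≤ 8 * P) ∧
  T.card ≤ 8 * P * b ∧
  (∀ u k, k ≠ cl u → (univ.filter fun v => cl v = cl u ∧ y v k = y u k).card ≤ P) ∧
  ∀ ρ : Equiv.Perm (Fin b), (∀ u, cl (ρ u) = cl u) →
    (∀ t ∈ T, y (ρ t.2.2.1) t.2.1 ≠ y (ρ t.2.2.2) t.2.1) → ρ = 1

/-- **[MD-SYS]** (`y_u(k) = f 1 u` for one class `k ≠ cl u`, `y_u(k) = f 0 u` for the others; the
tests of `E 0` are used with one other class) -/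
def SysStmt : Prop := ∀ (b m e : ℕ) (cl : Fin b → Fin m), 3 ≤ m → 400 ≤ e →
  (∀ i, e ≤ (cls cl i).card ∧ (cls cl i).card ≤ e + m) →
  ∃ (P : ℕ) (y : Fin b → Fin m → ℕ) (T : Finset (Tst b m)), P ^ 2 ≤ 4 * (e + m) ∧ MSys P cl y T

/-! ### The columns -/

/-- **[MD-D]** one column for every test, then shift columns (two letters of a class `i` with
different codes at `k`, none of the class `k`), then transversals; the remaining letters round
robin. -/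
def DStmt : Prop := ∀ (b m e P W ND : ℕ) (cl : Fin b → Fin m) (y : Fin b → Fin m → ℕ)
  (T : Finset (Tst b m)), 3 ≤ m → 1000 * m ≤ e →
  (∀ i, e ≤ (cls cl i).card ∧ (cls cl i).card ≤ e + m) → MSys P cl y T → 4 * P ≤ e →
  T.card + m * (W + T.card) ≤ ND →
  ∀ v : Fin m → ℕ, ∑ i, v i = ND * m → (∀ i, v i ≤ ND + W ∧ ND ≤ v i + W) →
  ∃ B : Fin ND → Finset (Fin b), (∀ d, (B d).card = m) ∧ (∀ d, RegM cl y (B d)) ∧
    (∀ t ∈ T, ∃ d, t.2.2.1 ∈ B d ∧ t.2.2.2 ∈ B d ∧ ∀ k ∈ miss cl (B d), k = t.2.1) ∧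
    (∀ i, ∑ d, (B d ∩ cls cl i).card = v i) ∧
    ∀ u, dgr B u ≤ 8 * P + 8 * (ND / e) + 8 * m

/-- **[MD-U]** random transversals -/
def UStmt : Prop := ∃ C : ℕ, 1 ≤ C ∧ ∀ (b m e NU : ℕ) (cl : Fin b → Fin m), 0 < m →
  1000 * m ≤ e → 10 ^ 6 ≤ e → (∀ i, e ≤ (cls cl i).card ∧ (cls cl i).card ≤ e + m) →
  (C : ℝ) * e * Real.log (b + 1) ≤ NU →
  ∃ A : Fin NU → Finset (Fin b), (∀ c, (A c).card = m) ∧ (∀ c i, (A c ∩ cls cl i).card = 1) ∧
    (∀ p, e * dgr A p ≤ C * NU) ∧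
    ∀ (T : Finset (Fin b)) (i : Fin m), T.card ≤ e + m →
      (∀ j, (T ∩ cls cl j).card ≤ (T ∩ cls cl i).card) →
      (T \ cls cl i).card ≤ 2 * (cls cl i \ T).card →
      NU * (cls cl i \ T).card ≤ C * e * (univ.filter fun c => Disjoint (A c) T).card

/-- **[MD-F]** transversals with exact degrees -/
def CompStmt : Prop := ∀ (b m NF : ℕ) (cl : Fin b → Fin m) (g : Fin b → ℕ),
  (∀ i, ∑ u ∈ cls cl i, g u = NF) →
  ∃ F : Fin NF → Finset (Fin b), (∀ c, (F c).card = m) ∧ (∀ c, miss cl (F c) = ∅) ∧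
    ∀ u, dgr F u = g u

/-- **[MD-DES]** -/
def DesM : Prop := ∃ b0 : ℕ, ∀ b m N : ℕ, b0 ≤ b → 3 ≤ m → m ^ 20 ≤ b → b ^ 8 ≤ N ^ 5 →
  N ^ 5 ≤ 32 * b ^ 8 → MDes b N m

/-- **[MD-DES]** as a step -/
def DesMStep : Prop := SzStmt → SysStmt → DStmt → UStmt → CompStmt → AccStmt → DesM

/-! ### The comparison -/

/-- **[MD-REM]** removal of `N` columns of length `m` (Weyl's product formula `H19.gt_prod`; the
factors `i < m ≤ j` change by a factor of at most two) -/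
def RemStmt : Prop := ∀ (n a m N : ℕ) (lam η : Fin n → ℕ), n ≤ a → m ≤ n → Antitone lam →
  Antitone η → (∀ i : Fin n, (if (i : ℕ) < m then N else 0) + η i = lam i) →
  (∀ i : Fin n, (i : ℕ) < m → T4.ex lam m + 2 * N ≤ lam i) →
  gt n a lam ≤ 2 ^ (m * a) * gt n a η

/-- **[MD-LB]** -/
def LBM : Prop := ∃ a0 : ℕ, ∀ (a b n m N : ℕ) (lam : Fin n → ℕ), a0 ≤ a → 6 * a ≤ b →
  b ^ 50 ≤ a ^ 51 → n ≤ a → Antitone lam → ∑ i, lam i = a * b → 3 ≤ m → m ≤ n → m ^ 20 ≤ b →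
  b ^ 8 ≤ N ^ 5 → N ^ 5 ≤ 32 * b ^ 8 →
  (∀ i : Fin n, (i : ℕ) < m → T4.ex lam m + 2 * N ≤ lam i) → a ^ 99 ≤ T4.ex lam 1 ^ 50 →
  gt n a lam ≤ plethMult b a n lam

/-- **[MD-LB]** as a step (growth from `a` to `b` letters: `H539.gt_growth_prod`) -/
def LBMStep : Prop := RemStmt → MatM → DesM → LBM

/-- **the theorem of this line**: a long third row -/
def ThirdLong : Prop := ∃ a0 : ℕ, ∀ (a b n : ℕ) (lam : Fin n → ℕ), a0 ≤ a → 6 * a ≤ b →
  (a : ℝ) ^ (5 / 3 : ℝ) ≤ T4.ex lam 2 → plethMult a b n lam ≤ plethMult b a n lam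

end Vale.Agent.P181.MD
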